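import Mathlib

/-!
P361, block LOC (4), abstract part (helper657): orthogonality of box resamplings.
-/

namespace Vale.Agent.P361.LRO.LOC

open Finset

/-- Abstract data for resampling a family of disjoint boxes. -/
structure BoxSys (Ω B : Type) where
  K : B → Type
  Bd : B → Type
  [fK : ∀ b, Fintype (K b)]
  good : B → Ω → Prop
  ka : ∀ b, Ω → K b
  bd : ∀ b, Ω → Bd b
  adm : ∀ b, Bd b → Finset (K b)
  rep : ∀ b, Ω → K b → Ω
  wt : ∀ b, K b → ℝ
  u : ∀ b, Bd b → K b → ℝ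
  w : Ω → ℝ
  U : Ω → ℝ
  w_nonneg : ∀ ω, 0 ≤ w ω
  wt_pos : ∀ b k, 0 < wt b k
  ka_adm : ∀ b ω, good b ω → ka b ω ∈ adm b (bd b ω)
  rep_ka : ∀ b ω, good b ω → rep b ω (ka b ω) = ω
  ka_rep : ∀ b ω k, good b ω → k ∈ adm b (bd b ω) → ka b (rep b ω k) = k
  bd_rep : ∀ b ω k, good b ω → k ∈ adm b (bd b ω) → bd b (rep b ω k) = bd b ω
  good_rep : ∀ b ω k, good b ω → k ∈ adm b (bd b ω) → good b (rep b ω k)
  rep_rep : ∀ b ω k k', good b ω → k ∈ adm b (bd b ω) → k' ∈ adm b (bd b ω) →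
    rep b (rep b ω k) k' = rep b ω k'
  w_rep : ∀ b ω k, good b ω → k ∈ adm b (bd b ω) → w (rep b ω k) * wt b (ka b ω) = w ω * wt b k
  U_rep : ∀ b ω k, good b ω → k ∈ adm b (bd b ω) →
    U (rep b ω k) - U ω = u b (bd b ω) k - u b (bd b ω) (ka b ω)
  good_other : ∀ b b' ω k, b ≠ b' → good b ω → k ∈ adm b (bd b ω) →
    (good b' (rep b ω k) ↔ good b' ω)
  ka_other : ∀ b b' ω k, b ≠ b' → good b ω → k ∈ adm b (bd b ω) → good b' ω →
    ka b' (rep b ω k) = ka b' ω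
  bd_other : ∀ b b' ω k, b ≠ b' → good b ω → k ∈ adm b (bd b ω) → good b' ω →
    bd b' (rep b ω k) = bd b' ω

namespace BoxSys

variable {Ω B : Type} (S : BoxSys Ω B)

attribute [instance] BoxSys.fK

/-- total weight of the admissible inside choices -/
noncomputable def W (b : B) (β : S.Bd b) : ℝ := ∑ k ∈ S.adm b β, S.wt b k

/-- mean of the box observable -/
noncomputable def mean (b : B) (β : S.Bd b) : ℝ := (∑ k ∈ S.adm b β, S.wt b k * S.u b β k) / S.W b β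

/-- conditional variance of the box observable -/
noncomputable def var (b : B) (β : S.Bd b) : ℝ :=
  (∑ k ∈ S.adm b β, S.wt b k * (S.u b β k - S.mean b β) ^ 2) / S.W b β

open Classical in
noncomputable def D (b : B) (ω : Ω) : ℝ :=
  if S.good b ω then S.u b (S.bd b ω) (S.ka b ω) - S.mean b (S.bd b ω) else 0

theorem W_pos (b : B) (ω : Ω) (h : S.good b ω) : 0 < S.W b (S.bd b ω) :=
  Finset.sum_pos (fun k _ => S.wt_pos b k) ⟨_, S.ka_adm b ω h⟩

open Classical in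
/-- resampling identity -/
theorem resample [Fintype Ω] (b : B) (F : Ω → ℝ) :
    ∑ ω with S.good b ω, S.w ω * F ω =
      ∑ ω with S.good b ω, S.w ω *
        ((∑ k ∈ S.adm b (S.bd b ω), S.wt b k * F (S.rep b ω k)) / S.W b (S.bd b ω)) := by
  have h1 : ∑ ω with S.good b ω, S.w ω * F ω =
      ∑ x ∈ (univ.filter (fun ω => S.good b ω)).sigma (fun ω => S.adm b (S.bd b ω)),
        S.w x.1 * S.wt b x.2 / S.W b (S.bd b x.1) * F x.1 := by
    rw [Finset.sum_sigma]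
    refine Finset.sum_congr rfl fun ω hω => ?_
    have hg : S.good b ω := (Finset.mem_filter.1 hω).2
    have hW := S.W_pos b ω hg
    have h3 : ∑ k ∈ S.adm b (S.bd b ω), S.w ω * S.wt b k / S.W b (S.bd b ω) * F ω =
        S.w ω * F ω * ((∑ k ∈ S.adm b (S.bd b ω), S.wt b k) / S.W b (S.bd b ω)) := by
      rw [Finset.sum_div, Finset.mul_sum]
      refine Finset.sum_congr rfl fun k _ => ?_
      ring
    rw [h3, show (∑ k ∈ S.adm b (S.bd b ω), S.wt b k) = S.W b (S.bd b ω) from rfl,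
      div_self hW.ne', mul_one]
  have h2 : ∑ ω with S.good b ω, S.w ω *
        ((∑ k ∈ S.adm b (S.bd b ω), S.wt b k * F (S.rep b ω k)) / S.W b (S.bd b ω)) =
      ∑ x ∈ (univ.filter (fun ω => S.good b ω)).sigma (fun ω => S.adm b (S.bd b ω)),
        S.w x.1 * S.wt b x.2 / S.W b (S.bd b x.1) * F (S.rep b x.1 x.2) := by
    rw [Finset.sum_sigma]
    refine Finset.sum_congr rfl fun ω _ => ?_
    rw [Finset.sum_div, Finset.mul_sum]
    refine Finset.sum_congr rfl fun k _ => ?_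
    ring
  rw [h1, h2]
  refine Finset.sum_bij' (fun x _ => (⟨S.rep b x.1 x.2, S.ka b x.1⟩ : (ω : Ω) × S.K b))
    (fun x _ => (⟨S.rep b x.1 x.2, S.ka b x.1⟩ : (ω : Ω) × S.K b)) ?_ ?_ ?_ ?_ ?_
  · rintro ⟨ω, k⟩ h
    simp only [Finset.mem_sigma, Finset.mem_filter, Finset.mem_univ, true_and] at h ⊢
    refine ⟨S.good_rep b ω k h.1 h.2, ?_⟩
    rw [S.bd_rep b ω k h.1 h.2]
    exact S.ka_adm b ω h.1
  · rintro ⟨ω, k⟩ h
    simp only [Finset.mem_sigma, Finset.mem_filter, Finset.mem_univ, true_and] at h ⊢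
    refine ⟨S.good_rep b ω k h.1 h.2, ?_⟩
    rw [S.bd_rep b ω k h.1 h.2]
    exact S.ka_adm b ω h.1
  · rintro ⟨ω, k⟩ h
    simp only [Finset.mem_sigma, Finset.mem_filter, Finset.mem_univ, true_and] at h ⊢
    have e1 : S.rep b (S.rep b ω k) (S.ka b ω) = ω := by
      rw [S.rep_rep b ω k _ h.1 h.2 (S.ka_adm b ω h.1), S.rep_ka b ω h.1]
    have e2 : S.ka b (S.rep b ω k) = k := S.ka_rep b ω k h.1 h.2
    rw [e1, e2]
  · rintro ⟨ω, k⟩ h
    simp only [Finset.mem_sigma, Finset.mem_filter, Finset.mem_univ, true_and] at h ⊢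
    have e1 : S.rep b (S.rep b ω k) (S.ka b ω) = ω := by
      rw [S.rep_rep b ω k _ h.1 h.2 (S.ka_adm b ω h.1), S.rep_ka b ω h.1]
    have e2 : S.ka b (S.rep b ω k) = k := S.ka_rep b ω k h.1 h.2
    rw [e1, e2]
  · rintro ⟨ω, k⟩ h
    simp only [Finset.mem_sigma, Finset.mem_filter, Finset.mem_univ, true_and] at h ⊢
    have e1 : S.rep b (S.rep b ω k) (S.ka b ω) = ω := by
      rw [S.rep_rep b ω k _ h.1 h.2 (S.ka_adm b ω h.1), S.rep_ka b ω h.1]
    rw [e1, S.bd_rep b ω k h.1 h.2, S.w_rep b ω k h.1 h.2]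

theorem sum_wt_dev (b : B) (ω : Ω) (h : S.good b ω) :
    ∑ k ∈ S.adm b (S.bd b ω), S.wt b k * (S.u b (S.bd b ω) k - S.mean b (S.bd b ω)) = 0 := by
  have hW := S.W_pos b ω h
  simp only [mul_sub]
  rw [Finset.sum_sub_distrib, ← Finset.sum_mul]
  rw [show (∑ k ∈ S.adm b (S.bd b ω), S.wt b k) = S.W b (S.bd b ω) from rfl]
  unfold mean
  field_simp
  ring

theorem D_rep (b : B) (ω : Ω) (k : S.K b) (h : S.good b ω) (hk : k ∈ S.adm b (S.bd b ω)) :
    S.D b (S.rep b ω k) = S.u b (S.bd b ω) k - S.mean b (S.bd b ω) := by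
  unfold D
  rw [if_pos (S.good_rep b ω k h hk), S.bd_rep b ω k h hk, S.ka_rep b ω k h hk]

theorem D_other (b b' : B) (hb : b ≠ b') (ω : Ω) (k : S.K b) (h : S.good b ω)
    (hk : k ∈ S.adm b (S.bd b ω)) : S.D b' (S.rep b ω k) = S.D b' ω := by
  unfold D
  by_cases hg : S.good b' ω
  · rw [if_pos hg, if_pos ((S.good_other b b' ω k hb h hk).2 hg),
      S.ka_other b b' ω k hb h hk hg, S.bd_other b b' ω k hb h hk hg]
  · rw [if_neg hg, if_neg (fun h' => hg ((S.good_other b b' ω k hb h hk).1 h'))]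

open Classical in
theorem sum_good [Fintype Ω] (b : B) (F : Ω → ℝ) (hF : ∀ ω, ¬ S.good b ω → F ω = 0) :
    ∑ ω, S.w ω * F ω = ∑ ω with S.good b ω, S.w ω * F ω := by
  rw [Finset.sum_filter]
  refine Finset.sum_congr rfl fun ω _ => ?_
  by_cases h : S.good b ω
  · rw [if_pos h]
  · rw [if_neg h, hF ω h, mul_zero]

theorem D_bad (b : B) (ω : Ω) (h : ¬ S.good b ω) : S.D b ω = 0 := by
  unfold D; rw [if_neg h]

/-- orthogonality of different boxes -/
theorem orth [Fintype Ω] (b b' : B) (hb : b ≠ b') : ∑ ω, S.w ω * (S.D b ω * S.D b' ω) = 0 := by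
  classical
  rw [S.sum_good b _ (fun ω h => by rw [S.D_bad b ω h, zero_mul]), S.resample b]
  refine Finset.sum_eq_zero fun ω hω => ?_
  have hg : S.good b ω := (Finset.mem_filter.1 hω).2
  have : ∑ k ∈ S.adm b (S.bd b ω), S.wt b k * (S.D b (S.rep b ω k) * S.D b' (S.rep b ω k)) = 0 := by
    have h1 : ∀ k ∈ S.adm b (S.bd b ω), S.wt b k * (S.D b (S.rep b ω k) * S.D b' (S.rep b ω k)) =
        (S.wt b k * (S.u b (S.bd b ω) k - S.mean b (S.bd b ω))) * S.D b' ω := by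
      intro k hk
      rw [S.D_rep b ω k hg hk, S.D_other b b' hb ω k hg hk]
      ring
    rw [Finset.sum_congr rfl h1, ← Finset.sum_mul, S.sum_wt_dev b ω hg, zero_mul]
  rw [this]
  simp

open Classical in
theorem sq_D [Fintype Ω] (b : B) : ∑ ω, S.w ω * (S.D b ω * S.D b ω) =
    ∑ ω with S.good b ω, S.w ω * S.var b (S.bd b ω) := by
  rw [S.sum_good b _ (fun ω h => by rw [S.D_bad b ω h, zero_mul]), S.resample b]
  refine Finset.sum_congr rfl fun ω hω => ?_
  have hg : S.good b ω := (Finset.mem_filter.1 hω).2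
  unfold var
  congr 2
  refine Finset.sum_congr rfl fun k hk => ?_
  rw [S.D_rep b ω k hg hk]
  ring

open Classical in
theorem U_D [Fintype Ω] (b : B) : ∑ ω, S.w ω * (S.U ω * S.D b ω) =
    ∑ ω with S.good b ω, S.w ω * S.var b (S.bd b ω) := by
  rw [S.sum_good b _ (fun ω h => by rw [S.D_bad b ω h, mul_zero]), S.resample b]
  refine Finset.sum_congr rfl fun ω hω => ?_
  have hg : S.good b ω := (Finset.mem_filter.1 hω).2
  unfold var
  congr 2
  have h1 : ∀ k ∈ S.adm b (S.bd b ω), S.wt b k * (S.U (S.rep b ω k) * S.D b (S.rep b ω k)) =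
      S.wt b k * (S.u b (S.bd b ω) k - S.mean b (S.bd b ω)) ^ 2 +
      (S.wt b k * (S.u b (S.bd b ω) k - S.mean b (S.bd b ω))) *
        (S.U ω - S.u b (S.bd b ω) (S.ka b ω) + S.mean b (S.bd b ω)) := by
    intro k hk
    rw [S.D_rep b ω k hg hk]
    have h2 := S.U_rep b ω k hg hk
    have h3 : S.U (S.rep b ω k) = S.U ω + (S.u b (S.bd b ω) k - S.u b (S.bd b ω) (S.ka b ω)) := by
      linarith
    rw [h3]
    ring
  rw [Finset.sum_congr rfl h1, Finset.sum_add_distrib, ← Finset.sum_mul, S.sum_wt_dev b ω hg,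
    zero_mul, add_zero]

open Classical in
/-- **Box inequality**: the second moment of `U` is at least the sum over the boxes of the expected
conditional variances. -/
theorem main [Fintype Ω] [Fintype B] : ∑ b, ∑ ω with S.good b ω, S.w ω * S.var b (S.bd b ω) ≤ ∑ ω, S.w ω * S.U ω ^ 2 := by
  have h0 : 0 ≤ ∑ ω, S.w ω * (S.U ω - ∑ b, S.D b ω) ^ 2 :=
    Finset.sum_nonneg fun ω _ => mul_nonneg (S.w_nonneg ω) (sq_nonneg _)
  have h1 : ∑ ω, S.w ω * (S.U ω - ∑ b, S.D b ω) ^ 2 =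
      ∑ ω, S.w ω * S.U ω ^ 2 - 2 * ∑ b, ∑ ω, S.w ω * (S.U ω * S.D b ω) +
        ∑ b, ∑ b', ∑ ω, S.w ω * (S.D b ω * S.D b' ω) := by
    have e1 : ∑ b, ∑ ω, S.w ω * (S.U ω * S.D b ω) = ∑ ω, ∑ b, S.w ω * (S.U ω * S.D b ω) :=
      Finset.sum_comm
    have e2 : ∑ b, ∑ b', ∑ ω, S.w ω * (S.D b ω * S.D b' ω) =
        ∑ ω, ∑ b, ∑ b', S.w ω * (S.D b ω * S.D b' ω) := by
      rw [Finset.sum_comm' (s := univ) (t := fun _ => univ) (t' := univ) (s' := fun _ => univ)
        (by simp)]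
      rw [← Finset.sum_comm]
      refine (Finset.sum_congr rfl fun b _ => ?_).trans Finset.sum_comm
      exact Finset.sum_comm
    rw [e1, e2, Finset.mul_sum, ← Finset.sum_sub_distrib, ← Finset.sum_add_distrib]
    refine Finset.sum_congr rfl fun ω _ => ?_
    have e3 : ∑ b, ∑ b', S.w ω * (S.D b ω * S.D b' ω) =
        S.w ω * ((∑ b, S.D b ω) * ∑ b', S.D b' ω) := by
      rw [Finset.sum_mul_sum, Finset.mul_sum]
      refine Finset.sum_congr rfl fun b _ => ?_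
      rw [Finset.mul_sum]
    have e4 : ∑ b, S.w ω * (S.U ω * S.D b ω) = S.w ω * (S.U ω * ∑ b, S.D b ω) := by
      rw [← Finset.mul_sum, ← Finset.mul_sum]
    rw [e3, e4]
    ring
  have h2 : ∑ b, ∑ b', ∑ ω, S.w ω * (S.D b ω * S.D b' ω) =
      ∑ b, ∑ ω with S.good b ω, S.w ω * S.var b (S.bd b ω) := by
    refine Finset.sum_congr rfl fun b _ => ?_
    rw [Finset.sum_eq_single b]
    · exact S.sq_D b
    · intro b' _ hb'
      exact S.orth b b' (Ne.symm hb')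
    · intro h; exact absurd (Finset.mem_univ b) h
  have h3 : ∑ b, ∑ ω, S.w ω * (S.U ω * S.D b ω) =
      ∑ b, ∑ ω with S.good b ω, S.w ω * S.var b (S.bd b ω) :=
    Finset.sum_congr rfl fun b _ => S.U_D b
  rw [h1, h2, h3] at h0
  linarith

end BoxSys

end Vale.Agent.P361.LRO.LOC
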